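import Mathlib

/-! Row 49, Fr (helper42): one character detects a third of any finite set of nonzero elements. -/

set_option autoImplicit false

open Finset

namespace Crest.Agent.N49.Fr

variable {H : Type*} [AddCommGroup H]

theorem exists_chr {h : H} (h0 : h ≠ 0) :
    ∃ χ : AddChar H ℂ, (∀ x, ‖χ x‖ = 1) ∧ χ h ≠ 1 ∧ ∃ M, 0 < M ∧ χ h ^ M = 1 := by
  obtain ⟨c, hc⟩ := CharacterModule.exists_character_apply_ne_zero_of_ne_zero h0
  let e : AddCircle (1 : ℚ) →+ AddCircle (1 : ℝ) :=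
    QuotientAddGroup.map _ _ (Rat.castHom ℝ).toAddMonoidHom (by
      rintro _ ⟨n, rfl⟩
      exact ⟨n, by simp⟩)
  let c' : H →+ AddCircle (1 : ℚ) := c
  refine ⟨Circle.coeHom.compAddChar
    (AddCircle.toCircle_addChar.compAddMonoidHom (e.comp c')), fun x => Circle.norm_coe _, ?_, ?_⟩
  · intro h1
    have h2 : AddCircle.toCircle (e (c' h)) = 1 := Circle.coe_eq_one.1 h1
    rw [← AddCircle.toCircle_zero, (AddCircle.injective_toCircle one_ne_zero).eq_iff] at h2
    refine hc ?_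
    change c' h = 0
    obtain ⟨q, hq⟩ := QuotientAddGroup.mk_surjective (c' h)
    rw [← hq] at h2 ⊢
    obtain ⟨n, hn⟩ := (QuotientAddGroup.eq_zero_iff _).1 h2
    refine (QuotientAddGroup.eq_zero_iff _).2 ⟨n, ?_⟩
    have : ((n : ℚ) : ℝ) = (q : ℝ) := by simpa using hn
    simpa using Rat.cast_injective (α := ℝ) this
  · obtain ⟨q, hq⟩ := QuotientAddGroup.mk_surjective (c' h)
    refine ⟨q.den, q.den_pos, ?_⟩
    have : c' (q.den • h) = 0 := by
      rw [map_nsmul, ← hq, ← QuotientAddGroup.mk_nsmul]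
      exact (QuotientAddGroup.eq_zero_iff _).2 ⟨q.num, by simp⟩
    rw [← AddChar.map_nsmul_eq_pow]
    change ((AddCircle.toCircle (e (c' (q.den • h))) : Circle) : ℂ) = 1
    rw [this, map_zero, AddCircle.toCircle_zero, Circle.coe_one]

theorem exists_third (S : Finset H) (h0 : (0 : H) ∉ S) :
    ∃ χ : AddChar H ℂ, (∀ x, ‖χ x‖ = 1) ∧ 3 * #{h ∈ S | 1 / 2 < (χ h).re} ≤ 2 * #S := by
  classical
  choose χ h1 h2 M h3 h4 using fun h : S => exists_chr (h := h.1) fun e => h0 (e ▸ h.2)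
  set N := ∏ h, M h with hN
  have N0 : 0 < N := prod_pos fun h _ => h3 h
  let X : (S → ℕ) → AddChar H ℂ := fun n => ∏ h, χ h ^ n h
  have hX : ∀ n x, X n x = ∏ h, χ h x ^ n h := fun n x => by
    simp only [X, AddChar.prod_apply, AddChar.pow_apply]
  have z : ∀ h : S, ∑ n ∈ Fintype.piFinset fun _ : S => range N, X n h = 0 := fun h => by
    simp only [hX]
    rw [← prod_univ_sum (fun _ : S => range N) fun k j => χ k h ^ j]
    refine prod_eq_zero (mem_univ h) ?_
    obtain ⟨d, hd⟩ : M h ∣ N := dvd_prod_of_mem _ (mem_univ h)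
    rw [geom_sum_eq (h2 h), hd, pow_mul, h4, one_pow, sub_self, zero_div]
  have s : ∑ n ∈ Fintype.piFinset fun _ : S => range N, ∑ h : S, (X n h).re ≤
      ∑ n ∈ Fintype.piFinset fun _ : S => range N, (0 : ℝ) := by
    rw [sum_comm]
    simp only [← Complex.re_sum, z, Complex.zero_re, sum_const_zero, le_refl]
  obtain ⟨n, -, hn⟩ := exists_le_of_sum_le
    (Fintype.piFinset_nonempty.2 fun _ => nonempty_range_iff.2 N0.ne') s
  have u : ∀ x, ‖X n x‖ = 1 := fun x => by simp [hX, h1]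
  refine ⟨X n, u, ?_⟩
  rw [sum_coe_sort S fun h => (X n h).re] at hn
  have : ∑ h ∈ S, ((if 1 / 2 < (X n h).re then 3 / 2 else 0) - 1 : ℝ) ≤ ∑ h ∈ S, (X n h).re :=
    sum_le_sum fun h _ => by
      have := (abs_le.1 ((Complex.abs_re_le_norm (X n h)).trans (u h).le)).1
      split_ifs <;> linarith
  rw [sum_sub_distrib, ← sum_filter, sum_const, sum_const, nsmul_eq_mul, nsmul_eq_mul] at this
  have h5 : (3 * #{h ∈ S | 1 / 2 < (X n h).re} : ℝ) ≤ 2 * #S := by linarith
  exact_mod_cast h5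

end Crest.Agent.N49.Fr
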