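import Crest.Agent.N49.Fr.Chr
import Crest.Agent.R51.AddBSG

/-! Row 49, Fr (helper42): many respected quadruples give a Freiman homomorphism. -/

set_option autoImplicit false

open Finset
open scoped Pointwise Combinatorics.Additive

namespace Crest.Agent.N49.Fr

variable {G H : Type*} [AddCommGroup G] [AddCommGroup H]

/-- Freiman homomorphisms of order `k` on `A` -/
def Fh (k : ℕ) (A : Finset G) (φ : G → H) : Prop :=
  ∀ u v : Fin k → G, (∀ i, u i ∈ A) → (∀ i, v i ∈ A) → ∑ i, u i = ∑ i, v i →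
    ∑ i, φ (u i) = ∑ i, φ (v i)

open Classical in
/-- the number of additive quadruples in `A` respected by `φ` -/
noncomputable def Q (A : Finset G) (φ : G → H) : ℕ :=
  #{x ∈ (A ×ˢ A) ×ˢ A ×ˢ A | x.1.1 + x.2.1 = x.1.2 + x.2.2 ∧
    φ x.1.1 + φ x.2.1 = φ x.1.2 + φ x.2.2}

/-- the exponent -/
def Cf (k : ℕ) : ℕ := 5 + (46 * k + 28) * (4 * k + 12)

theorem Fh.mono {k : ℕ} {A A' : Finset G} {φ : G → H} (h : Fh k A φ) (e : A' ⊆ A) : Fh k A' φ :=
  fun u v hu hv => h u v (fun i => e (hu i)) fun i => e (hv i)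

/-- all the nonzero defects lie in `S` -/
def Df (k : ℕ) (A : Finset G) (φ : G → H) (S : Finset H) : Prop :=
  ∀ u v : Fin k → G, (∀ i, u i ∈ A) → (∀ i, v i ∈ A) → ∑ i, u i = ∑ i, v i →
    ∑ i, φ (u i) - ∑ i, φ (v i) ≠ 0 → ∑ i, φ (u i) - ∑ i, φ (v i) ∈ S

theorem pigeon {α β : Type*} [DecidableEq β] (A : Finset α) (T : Finset β) (hT : T.Nonempty)
    (f : α → β) (hf : ∀ a ∈ A, f a ∈ T) : ∃ y, #A ≤ #T * #{a ∈ A | f a = y} := by
  obtain ⟨y, -, hy⟩ := exists_max_image T (fun y => #{a ∈ A | f a = y}) hT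
  exact ⟨y, (card_le_mul_card_image_of_maps_to hf _ hy).trans_eq (mul_comm _ _)⟩

theorem chr_sum {χ : AddChar H ℂ} (hχ : ∀ x, ‖χ x‖ = 1) {ι : Type*} (s : Finset ι) (x : ι → H) :
    ‖χ (∑ i ∈ s, x i) - 1‖ ≤ ∑ i ∈ s, ‖χ (x i) - 1‖ := by
  classical
  induction s using Finset.induction_on with
  | empty => simp
  | insert a s ha ih =>
    rw [sum_insert ha, sum_insert ha, AddChar.map_add_eq_mul]
    have e : χ (x a) * χ (∑ i ∈ s, x i) - 1 =
        (χ (x a) - 1) + χ (x a) * (χ (∑ i ∈ s, x i) - 1) := by ring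
    rw [e]
    refine (norm_add_le _ _).trans ?_
    rw [norm_mul, hχ, one_mul]
    linarith

theorem step (k : ℕ) (A : Finset G) (φ : G → H) (S : Finset H) (h0 : (0 : H) ∉ S)
    (h : Df k A φ S) : ∃ A' ⊆ A, ∃ S' ⊆ S, Df k A' φ S' ∧ 3 * #S' ≤ 2 * #S ∧
      #A ≤ 2 ^ (2 * k + 6) * #A' := by
  obtain ⟨χ, hχ, h3⟩ := exists_third S h0
  set m : ℝ := 2 * k + 2 with hm
  have m0 : 0 < m := by positivity
  set I : Finset ℤ := Icc (-(2 * k + 2 : ℤ)) (2 * k + 2) with hI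
  have hI' : ∀ r : ℝ, |r| ≤ 1 → ⌊r * m⌋ ∈ I := fun r hr => by
    rw [abs_le] at hr
    refine mem_Icc.2 ⟨Int.le_floor.2 ?_, Int.floor_le_iff.2 ?_⟩ <;> push_cast <;> nlinarith
  obtain ⟨y, hy⟩ := pigeon A (I ×ˢ I) ⟨(0, 0), by simp only [hI, mem_product, mem_Icc]; omega⟩
    (fun a => (⌊(χ (φ a)).re * m⌋, ⌊(χ (φ a)).im * m⌋)) fun a _ => mem_product.2
      ⟨hI' _ ((Complex.abs_re_le_norm _).trans (hχ _).le),
        hI' _ ((Complex.abs_im_le_norm _).trans (hχ _).le)⟩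
  refine ⟨{a ∈ A | (⌊(χ (φ a)).re * m⌋, ⌊(χ (φ a)).im * m⌋) = y}, filter_subset _ _, _,
    filter_subset _ S, fun u v hu hv e hne => ?_, h3, hy.trans ?_⟩
  · refine mem_filter.2 ⟨h u v (fun i => (mem_filter.1 (hu i)).1)
      (fun i => (mem_filter.1 (hv i)).1) e hne, ?_⟩
    have fl : ∀ r s : ℝ, ⌊r * m⌋ = ⌊s * m⌋ → |r - s| ≤ 1 / m := fun r s h => by
      have := Int.abs_sub_lt_one_of_floor_eq_floor h
      rw [← sub_mul, abs_mul, abs_of_pos m0] at this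
      rw [le_div_iff₀ m0]; exact this.le
    have h1 : ∀ i, ‖χ (φ (u i) - φ (v i)) - 1‖ ≤ 2 / m := fun i => by
      have e := Prod.ext_iff.1 ((mem_filter.1 (hu i)).2.trans (mem_filter.1 (hv i)).2.symm)
      have e1 : χ (φ (u i)) - χ (φ (v i)) = χ (φ (v i)) * (χ (φ (u i) - φ (v i)) - 1) := by
        rw [mul_sub, ← AddChar.map_add_eq_mul, add_sub_cancel, mul_one]
      have e2 := Complex.norm_le_abs_re_add_abs_im (χ (φ (u i)) - χ (φ (v i)))
      rw [Complex.sub_re, Complex.sub_im, e1, norm_mul, hχ, one_mul] at e2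
      have := fl _ _ e.1
      have := fl _ _ e.2
      rw [show 2 / m = 1 / m + 1 / m by ring]; linarith
    rw [← sum_sub_distrib]
    have h2 := (chr_sum hχ univ _).trans (sum_le_card_nsmul _ _ _ fun i _ => h1 i)
    set z := χ (∑ i, (φ (u i) - φ (v i)))
    have h4 : ‖z - 1‖ < 1 := h2.trans_lt (by
      rw [card_univ, Fintype.card_fin, nsmul_eq_mul, mul_div_assoc', div_lt_one m0]; linarith)
    have h5 : ‖z - 1‖ ^ 2 = 2 - 2 * z.re := by
      have : ‖z‖ ^ 2 = 1 := by rw [hχ]; norm_num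
      rw [Complex.sq_norm, Complex.normSq_apply] at this ⊢
      simp only [Complex.sub_re, Complex.sub_im, Complex.one_re, Complex.one_im]
      linarith
    nlinarith [norm_nonneg (z - 1)]
  · refine Nat.mul_le_mul_right _ ?_
    have : #I ≤ 2 ^ (k + 3) := by
      have h1 : k < 2 ^ k := Nat.lt_two_pow_self
      rw [hI, Int.card_Icc, pow_add]; omega
    rw [card_product, show 2 * k + 6 = (k + 3) + (k + 3) by ring, pow_add]
    exact Nat.mul_le_mul this this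

theorem iter (k : ℕ) (φ : G → H) (j : ℕ) : ∀ (A : Finset G) (S : Finset H), (0 : H) ∉ S →
    Df k A φ S → #S < 2 ^ j → ∃ A' ⊆ A, Fh k A' φ ∧ #A ≤ (2 ^ j) ^ (4 * k + 12) * #A' := by
  induction j with
  | zero =>
    intro A S _ h hS
    obtain rfl : S = ∅ := card_eq_zero.1 (by omega)
    exact ⟨A, Subset.rfl, fun u v hu hv e => sub_eq_zero.1 (by
      by_contra hne; exact notMem_empty _ (h u v hu hv e hne)), by simp⟩
  | succ j ih =>
    intro A S h0 h hS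
    obtain ⟨A1, a1, S1, s1, h1, c1, d1⟩ := step k A φ S h0 h
    obtain ⟨A2, a2, S2, s2, h2, c2, d2⟩ := step k A1 φ S1 (fun e => h0 (s1 e)) h1
    obtain ⟨A3, a3, h3, d3⟩ := ih A2 S2 (fun e => h0 (s1 (s2 e))) h2 (by omega)
    refine ⟨A3, a3.trans (a2.trans a1), h3, d1.trans ((Nat.mul_le_mul_left _
      (d2.trans (Nat.mul_le_mul_left _ d3))).trans_eq (by ring))⟩

/-- Balog-Szemerédi-Gowers from the energy -/
theorem bsgE {W : Type*} [AddCommGroup W] [DecidableEq W] (Γ : Finset W) (hΓ : Γ.Nonempty) {t : ℝ}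
    (ht : 2 ≤ t) (hE : 2 * (#Γ : ℝ) ^ 3 ≤ t * E[Γ, Γ]) : ∃ A' ⊆ Γ, ∃ B' ⊆ Γ,
      (#Γ : ℝ) ≤ t ^ 4 * #A' ∧ (#Γ : ℝ) ≤ t ^ 3 * #B' ∧ (#(B' + A') : ℝ) ≤ t ^ 20 * #Γ := by
  set n : ℝ := ((#Γ : ℕ) : ℝ) with hn
  have n0 : 0 < n := Nat.cast_pos.2 hΓ.card_pos
  set r : W → ℝ := fun s => ((#{p ∈ Γ ×ˢ Γ | p.1 + p.2 = s} : ℕ) : ℝ) with hr
  have r0 : ∀ s, 0 ≤ r s := fun s => Nat.cast_nonneg _
  have r1 : ∀ s, r s ≤ n := fun s => Nat.cast_le.2 (card_le_card_of_injOn Prod.fst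
    (fun p hp => (mem_product.1 (mem_filter.1 hp).1).1) fun p hp q hq e => Prod.ext e
      (add_left_cancel (a := p.1) (by rw [(mem_filter.1 hp).2, e, (mem_filter.1 hq).2])))
  have r2 : ∑ s ∈ Γ + Γ, r s = n ^ 2 := by
    rw [hr, ← Nat.cast_sum, ← card_eq_sum_card_fiberwise fun p hp =>
      add_mem_add (mem_product.1 hp).1 (mem_product.1 hp).2, card_product]
    push_cast; ring
  set P := {s ∈ Γ + Γ | n ≤ t * r s} with hP
  set E' := {p ∈ Γ ×ˢ Γ | p.1 + p.2 ∈ P} with hE'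
  have e1 : (#E' : ℝ) = ∑ s ∈ P, r s := by
    rw [card_eq_sum_card_fiberwise (f := fun p : W × W => p.1 + p.2) (s := E') (t := P)
      fun p hp => (mem_filter.1 hp).2, Nat.cast_sum]
    refine sum_congr rfl fun s hs => congrArg _ (congrArg _ ?_)
    ext p
    simp only [hE', mem_filter]
    exact ⟨fun h => ⟨h.1.1, h.2⟩, fun h => ⟨⟨h.1, h.2 ▸ hs⟩, h.2⟩⟩
  have e2 : ∑ s ∈ P, r s ≤ n ^ 2 :=
    r2 ▸ sum_le_sum_of_subset_of_nonneg (filter_subset _ _) fun s _ _ => r0 s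
  have e3 : t * E[Γ, Γ] ≤ t * n * ∑ s ∈ P, r s + n * n ^ 2 := by
    rw [addEnergy_eq_sum_sq', ← r2, hP, sum_filter, mul_sum, mul_sum, ← sum_add_distrib]
    push_cast
    rw [mul_sum]
    refine sum_le_sum fun s _ => ?_
    change t * r s ^ 2 ≤ _
    have := r0 s
    have := r1 s
    split_ifs with h
    · nlinarith [mul_nonneg (r0 s) n0.le, mul_nonneg (r0 s) (sub_nonneg.2 (r1 s))]
    · nlinarith [not_le.1 h]
  have e4 : n * n ≤ t * #E' := by
    rw [e1]; refine le_of_mul_le_mul_left ?_ n0; nlinarith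
  have e5 : (#P : ℝ) ≤ t * n := by
    have := card_nsmul_le_sum P (fun s => t * r s) n fun s hs => (mem_filter.1 hs).2
    rw [nsmul_eq_mul, ← mul_sum] at this
    refine le_of_mul_le_mul_right ?_ n0; nlinarith
  obtain ⟨A', a, B', b, h1, h2, h3⟩ := R51.bsg_add Γ Γ E' (filter_subset _ _) hΓ hΓ t
    (by linarith) e4
  have t0 : 0 ≤ t := by linarith
  have p : ∀ j : ℕ, (2 : ℝ) ^ j ≤ t ^ j := fun j => pow_le_pow_left₀ zero_le_two ht j
  refine ⟨A', a, B', b, h1.trans (mul_le_mul_of_nonneg_right ?_ (Nat.cast_nonneg _)),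
    h2.trans (mul_le_mul_of_nonneg_right ?_ (Nat.cast_nonneg _)), ?_⟩
  · nlinarith [p 3]
  · nlinarith [p 2]
  · have h4 : (#(E'.image fun p => p.1 + p.2) : ℝ) ≤ t * n :=
      (Nat.cast_le.2 (card_le_card (image_subset_iff.2 fun p hp => (mem_filter.1 hp).2))).trans e5
    have h5 : (3072 : ℝ) ≤ t ^ 12 := le_trans (by norm_num) (p 12)
    rw [add_comm]
    refine le_of_mul_le_mul_right (h3.trans ?_) (mul_pos n0 n0)
    calc _ ≤ t ^ 12 * t ^ 5 * (t * n) ^ 3 := by gcongr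
      _ = _ := by ring

theorem Q_le [DecidableEq G] [DecidableEq H] (A : Finset G) (φ : G → H) :
    Q A φ ≤ E[A.image fun a => (a, φ a), A.image fun a => (a, φ a)] := by
  refine card_le_card_of_injOn (fun x => (((x.1.1, φ x.1.1), (x.1.2, φ x.1.2)),
    (x.2.1, φ x.2.1), (x.2.2, φ x.2.2))) (fun x hx => ?_) fun x _ y _ e => ?_
  · simp only [coe_filter, mem_product, Set.mem_ofPred_eq] at hx ⊢
    exact ⟨⟨⟨mem_image_of_mem _ hx.1.1.1, mem_image_of_mem _ hx.1.1.2⟩,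
      mem_image_of_mem _ hx.1.2.1, mem_image_of_mem _ hx.1.2.2⟩, Prod.ext hx.2.1 hx.2.2⟩
  · simp only [Prod.mk.injEq] at e
    exact Prod.ext (Prod.ext e.1.1.1 e.1.2.1) (Prod.ext e.2.1.1 e.2.2.1)

theorem Q_le_cube (A : Finset G) (φ : G → H) : Q A φ ≤ #A ^ 3 := by
  refine (card_le_card_of_injOn (t := (A ×ˢ A) ×ˢ A) (fun x => (x.1, x.2.1)) (fun x hx => ?_)
    fun x hx y hy e => ?_).trans_eq (by simp [pow_succ])
  · simp only [coe_filter, mem_product, Set.mem_ofPred_eq, mem_coe] at hx ⊢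
    exact ⟨hx.1.1, hx.1.2.1⟩
  · simp only [coe_filter, Set.mem_ofPred_eq, Prod.mk.injEq] at hx hy e
    refine Prod.ext e.1 (Prod.ext e.2 (add_left_cancel (a := x.1.2) ?_))
    rw [← hx.2.1, e.1, e.2, hy.2.1]

/-- relative form, from the energy of the graph -/
theorem fr0E [DecidableEq G] [DecidableEq H] (k : ℕ) (A : Finset G) (φ : G → H) {t : ℝ}
    (ht : 2 ≤ t) (hQ : 2 * (#A : ℝ) ^ 3 ≤
      t * E[A.image fun a => (a, φ a), A.image fun a => (a, φ a)]) :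
    ∃ A' ⊆ A, Fh k A' φ ∧ (#A : ℝ) ≤ t ^ (Cf k - 1) * #A' := by
  rcases A.eq_empty_or_nonempty with rfl | hA
  · exact ⟨∅, Subset.rfl, fun u v hu hv _ => sum_congr rfl fun i _ =>
      absurd (hu i) (notMem_empty _), by simp⟩
  have t0 : 0 ≤ t := by linarith
  have t1 : 1 ≤ t := by linarith
  set Γ := A.image fun a => (a, φ a) with hΓ
  have inj : Function.Injective fun a => (a, φ a) := fun a b e => congrArg Prod.fst e
  have cΓ : #Γ = #A := card_image_of_injective _ inj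
  obtain ⟨A', a, B', b, h1, h2, h3⟩ := bsgE Γ (hA.image _) ht (by rw [cΓ]; exact hQ)
  have n0 : (0 : ℝ) < #Γ := Nat.cast_pos.2 (hA.image _).card_pos
  have a0 : (0 : ℝ) < #A' := (mul_pos_iff_of_pos_left (by positivity)).1 (n0.trans_le h1)
  have b0 : (0 : ℝ) < #B' := (mul_pos_iff_of_pos_left (by positivity)).1 (n0.trans_le h2)
  have gr : ∀ γ ∈ A', γ.1 ∈ A ∧ γ.2 = φ γ.1 := fun γ hγ => by
    obtain ⟨x, hx, rfl⟩ := mem_image.1 (a hγ); exact ⟨hx, rfl⟩
  set S := (({p ∈ k • A' - k • A' | p.1 = 0}).image Prod.snd).erase 0 with hS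
  have s1 : #S * #A' ≤ #((k + 1) • A' - k • A') := by
    rw [← card_product]
    refine card_le_card_of_injOn (fun p => p.2 + (0, p.1)) (fun p hp => ?_) fun p hp q hq e => ?_
    · obtain ⟨p1, p2⟩ := mem_product.1 (mem_coe.1 hp)
      obtain ⟨z, hz, e⟩ := mem_image.1 (mem_of_mem_erase p1)
      obtain ⟨x, hx, y, hy, e'⟩ := mem_sub.1 (mem_filter.1 hz).1
      have : ((0, p.1) : G × H) = x - y := by
        rw [e', ← e, ← (mem_filter.1 hz).2]
      rw [succ_nsmul]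
      exact mem_coe.2 (mem_sub.2 ⟨_, add_mem_add hx p2, y, hy, by simp only [this]; abel⟩)
    · have p2 := (mem_product.1 (mem_coe.1 hp)).2
      have q2 := (mem_product.1 (mem_coe.1 hq)).2
      have e1 : p.2.1 = q.2.1 := by simpa using congrArg Prod.fst e
      have e2 : p.2 = q.2 := Prod.ext e1 (by rw [(gr _ p2).2, (gr _ q2).2, e1])
      simp only [e2, add_right_inj, Prod.mk.injEq, true_and] at e
      exact Prod.ext e e2
  have s2 : (#((k + 1) • A' - k • A') : ℝ) ≤ (#(B' + A') / #B') ^ (k + 1 + k) * #B' := by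
    have := (NNRat.cast_le (K := ℝ)).2 (pluennecke_ruzsa_inequality_nsmul_sub_nsmul_add
      (card_pos.1 (Nat.cast_pos.1 b0)) A' (k + 1) k)
    push_cast at this
    exact this
  have s3 : (#(B' + A') / #B' : ℝ) ≤ t ^ 23 := by
    rw [div_le_iff₀ b0]
    exact h3.trans ((mul_le_mul_of_nonneg_left h2 (by positivity)).trans_eq (by ring))
  have s4 : (#S : ℝ) ≤ t ^ (46 * k + 27) := by
    refine le_of_mul_le_mul_right (((Nat.cast_mul _ _).ge.trans (Nat.cast_le.2 s1)).trans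
      (s2.trans ?_)) a0
    calc _ ≤ (t ^ 23) ^ (k + 1 + k) * (t ^ 4 * #A') := by
          gcongr; exact (Nat.cast_le.2 (card_le_card b)).trans h1
      _ = _ := by ring
  obtain ⟨A2, a2, f2, c2⟩ := iter k φ (Nat.size #S) (A'.image Prod.fst) S (notMem_erase _ _)
    (fun u v hu hv e hne => by
      have key : ∀ u : Fin k → G, (∀ i, u i ∈ A'.image Prod.fst) →
          (∑ i, u i, ∑ i, φ (u i)) ∈ k • A' := fun u hu => by
        refine mem_nsmul.2 ⟨fun i => ⟨(u i, φ (u i)), ?_⟩, ?_⟩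
        · obtain ⟨γ, hγ, e⟩ := mem_image.1 (hu i)
          rwa [← e, ← (gr γ hγ).2]
        · rw [List.sum_ofFn]; exact Prod.ext (Prod.fst_sum) (Prod.snd_sum)
      exact mem_erase.2 ⟨hne, mem_image.2 ⟨_, mem_filter.2
        ⟨sub_mem_sub (key u hu) (key v hv), sub_eq_zero.2 e⟩, rfl⟩⟩) (Nat.lt_size_self _)
  refine ⟨A2, a2.trans (image_subset_iff.2 fun γ hγ => (gr γ hγ).1), f2, ?_⟩
  have c3 : #(A'.image Prod.fst) = #A' := card_image_of_injOn fun p hp q hq e =>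
    Prod.ext e (by rw [(gr _ hp).2, (gr _ hq).2, e])
  have s5 : (2 : ℝ) ^ Nat.size #S ≤ t ^ (46 * k + 28) := by
    rcases h : Nat.size #S with _ | i
    · exact one_le_pow₀ t1
    · have : (2 : ℝ) ^ i ≤ #S := by exact_mod_cast Nat.lt_size.1 (by omega)
      rw [pow_succ, pow_succ t (46 * k + 27)]
      exact mul_le_mul (this.trans s4) ht zero_le_two (by positivity)
  have c4 : (#A' : ℝ) ≤ (t ^ (46 * k + 28)) ^ (4 * k + 12) * #A2 := by
    rw [← c3]
    refine le_trans (by exact_mod_cast c2) (mul_le_mul_of_nonneg_right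
      (pow_le_pow_left₀ (by positivity) s5 _) (Nat.cast_nonneg _))
  rw [← cΓ, show Cf k - 1 = 4 + (46 * k + 28) * (4 * k + 12) by rw [Cf]; omega, pow_add, pow_mul,
    mul_assoc]
  exact h1.trans (mul_le_mul_of_nonneg_left c4 (by positivity))

/-- relative form -/
theorem fr0 (k : ℕ) (A : Finset G) (φ : G → H) {t : ℝ} (ht : 2 ≤ t)
    (hQ : 2 * (#A : ℝ) ^ 3 ≤ t * Q A φ) :
    ∃ A' ⊆ A, Fh k A' φ ∧ (#A : ℝ) ≤ t ^ (Cf k - 1) * #A' := by
  classical
  exact fr0E k A φ ht (hQ.trans (mul_le_mul_of_nonneg_left (Nat.cast_le.2 (Q_le A φ))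
    (by linarith)))

theorem le_of_Q [Fintype G] {A : Finset G} {φ : G → H} {δ : ℝ}
    (hQ : δ * (Fintype.card G : ℝ) ^ 3 ≤ Q A φ) : δ ≤ 1 ∧ δ * Fintype.card G ≤ #A := by
  have N0 : (0 : ℝ) < Fintype.card G := Nat.cast_pos.2 Fintype.card_pos
  have h1 : (#A : ℝ) ≤ Fintype.card G := Nat.cast_le.2 (card_le_univ A)
  have h2 : δ * (Fintype.card G : ℝ) ^ 3 ≤ #A * (Fintype.card G : ℝ) ^ 2 :=
    hQ.trans ((Nat.cast_le.2 (Q_le_cube A φ)).trans (by
      push_cast; rw [pow_succ']; gcongr))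
  have h3 : δ * Fintype.card G ≤ #A :=
    le_of_mul_le_mul_right (by linarith [pow_succ' (Fintype.card G : ℝ) 2]) (pow_pos N0 2)
  exact ⟨le_of_mul_le_mul_right (by linarith) N0, h3⟩

/-- **quadruples give a Freiman homomorphism** -/
theorem fr1 [Fintype G] (k : ℕ) (A : Finset G) (φ : G → H) {δ : ℝ} (h0 : 0 < δ)
    (hQ : δ * (Fintype.card G : ℝ) ^ 3 ≤ Q A φ) :
    ∃ A' ⊆ A, (δ / 2) ^ Cf k * Fintype.card G ≤ #A' ∧ Fh k A' φ := by
  obtain ⟨h1, h2⟩ := le_of_Q hQ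
  have h3 : (#A : ℝ) ≤ Fintype.card G := Nat.cast_le.2 (card_le_univ A)
  obtain ⟨A', a, f, c⟩ := fr0 k A φ (t := 2 / δ) (by rw [le_div_iff₀ h0]; linarith) (by
    rw [div_mul_eq_mul_div, le_div_iff₀ h0]
    nlinarith [mul_le_mul_of_nonneg_left (pow_le_pow_left₀ (Nat.cast_nonneg _) h3 3) h0.le])
  refine ⟨A', a, ?_, f⟩
  have e : Cf k = (Cf k - 1) + 1 := by rw [Cf]; omega
  have p : 0 < (δ / 2) ^ (Cf k - 1) := by positivity
  have := mul_le_mul_of_nonneg_left c p.le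
  rw [← mul_assoc, ← mul_pow, show δ / 2 * (2 / δ) = 1 by field_simp, one_pow, one_mul] at this
  rw [e, pow_succ, mul_assoc]
  refine le_trans (mul_le_mul_of_nonneg_left ?_ p.le) this
  nlinarith [Nat.cast_nonneg (α := ℝ) #A]

theorem Fh.isAddFreimanHom {k : ℕ} {A : Finset G} {φ : G → H} (h : Fh k A φ) :
    IsAddFreimanHom k (A : Set G) Set.univ φ := by
  refine ⟨Set.mapsTo_univ _ _, fun s t hs ht cs ct e => ?_⟩
  have key : ∀ s : Multiset G, s.card = k → ∃ u : Fin k → G, s = univ.val.map u := by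
    intro s c
    obtain ⟨l, rfl⟩ := Quot.exists_rep s
    obtain rfl : l.length = k := c
    exact ⟨l.get, by rw [Fin.univ_val_map, List.ofFn_get]; rfl⟩
  obtain ⟨u, rfl⟩ := key s cs
  obtain ⟨v, rfl⟩ := key t ct
  rw [Multiset.map_map, Multiset.map_map]
  exact h u v (fun i => hs (Multiset.mem_map_of_mem _ (mem_univ i)))
    (fun i => ht (Multiset.mem_map_of_mem _ (mem_univ i))) e

theorem Fh.of_isAddFreimanHom {k : ℕ} {A : Finset G} {φ : G → H} {B : Set H}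
    (h : IsAddFreimanHom k (A : Set G) B φ) : Fh k A φ := fun u v hu hv e => by
  have := h.map_sum_eq_map_sum (s := univ.val.map u) (t := univ.val.map v)
    (fun x hx => by obtain ⟨i, -, rfl⟩ := Multiset.mem_map.1 hx; exact hu i)
    (fun x hx => by obtain ⟨i, -, rfl⟩ := Multiset.mem_map.1 hx; exact hv i) (by simp) (by simp) e
  rwa [Multiset.map_map, Multiset.map_map] at this

theorem energy_le_cube {W : Type*} [AddCommGroup W] [DecidableEq W] (Γ : Finset W) :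
    E[Γ, Γ] ≤ #Γ ^ 3 := by
  refine (card_le_card_of_injOn (t := (Γ ×ˢ Γ) ×ˢ Γ) (fun x => (x.1, x.2.1)) (fun x hx => ?_)
    fun x hx y hy e => ?_).trans_eq (by simp [pow_succ])
  · simp only [coe_filter, mem_product, Set.mem_ofPred_eq, mem_coe] at hx ⊢
    exact ⟨hx.1.1, hx.1.2.1⟩
  · simp only [coe_filter, Set.mem_ofPred_eq, Prod.mk.injEq] at hx hy e
    refine Prod.ext e.1 (Prod.ext e.2 (add_left_cancel (a := x.1.2) ?_))
    rw [← hx.2, e.1, e.2, hy.2]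

universe u v in
/-- **energy of the graph gives a Freiman homomorphism** (interface of N49/Gw) -/
theorem fre (t : ℕ) : ∃ C : ℕ, ∀ {G : Type u} {H : Type v} [AddCommGroup G] [Fintype G]
    [DecidableEq G] [AddCommGroup H] [DecidableEq H] (A : Finset G) (φ : G → H) (m : ℕ), 1 ≤ m →
    Fintype.card G ^ 3 ≤ 2 ^ m * E[A.image fun a => (a, φ a), A.image fun a => (a, φ a)] →
    ∃ A' ⊆ A, Fintype.card G ≤ 2 ^ (C * m) * #A' ∧ IsAddFreimanHom t (A' : Set G) Set.univ φ := by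
  refine ⟨2 * Cf t, fun {G H} _ _ _ _ _ A φ m hm h => ?_⟩
  have h1 : #A ≤ Fintype.card G := card_le_univ A
  have h2 : Fintype.card G ≤ 2 ^ m * #A := by
    have c : #(A.image fun a => (a, φ a)) ≤ #A := card_image_le
    refine Nat.le_of_mul_le_mul_right (c := Fintype.card G ^ 2) ?_ (pow_pos Fintype.card_pos 2)
    calc _ = Fintype.card G ^ 3 := by ring
      _ ≤ 2 ^ m * #A ^ 3 := h.trans (Nat.mul_le_mul_left _
          ((energy_le_cube _).trans (Nat.pow_le_pow_left c 3)))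
      _ = 2 ^ m * #A * #A ^ 2 := by ring
      _ ≤ _ := Nat.mul_le_mul_left _ (Nat.pow_le_pow_left h1 2)
  obtain ⟨A', a, f, c⟩ := fr0E t A φ (t := 2 ^ (m + 1)) (le_self_pow₀ one_le_two (by omega)) (by
    have := (Nat.pow_le_pow_left h1 3).trans h
    rw [pow_succ' (2 : ℝ) m, mul_assoc]
    exact mul_le_mul_of_nonneg_left (by exact_mod_cast this) zero_le_two)
  refine ⟨A', a, h2.trans ?_, f.isAddFreimanHom⟩
  have c' : #A ≤ (2 ^ (m + 1)) ^ (Cf t - 1) * #A' := by exact_mod_cast c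
  refine (Nat.mul_le_mul_left _ c').trans ?_
  rw [← mul_assoc, ← pow_mul, ← pow_add]
  refine Nat.mul_le_mul_right _ (Nat.pow_le_pow_right two_pos ?_)
  obtain ⟨c, e⟩ : ∃ c, Cf t = c + 1 := ⟨Cf t - 1, by rw [Cf]; omega⟩
  rw [e, Nat.add_sub_cancel]; nlinarith

end Crest.Agent.N49.Fr
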