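import Crest.Agent.N49.Fr.One

/-! Row 49, Fr (helper42): four-function version (UPG), also linewise. -/

set_option autoImplicit false

open Finset
open scoped Pointwise Combinatorics.Additive

namespace Crest.Agent.N49.Fr

variable {G H : Type*} [AddCommGroup G] [AddCommGroup H]

/-- Cauchy-Schwarz along the fibres of a map -/
theorem cs_fib {α β : Type*} [DecidableEq β] (T : Finset α) (U : Finset β) (g : α → β)
    (h : ∀ x ∈ T, g x ∈ U) : #T ^ 2 ≤ #U * #{p ∈ T ×ˢ T | g p.1 = g p.2} := by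
  rw [card_eq_sum_card_fiberwise (s := T) h, card_eq_sum_card_fiberwise
    (s := {p ∈ T ×ˢ T | g p.1 = g p.2}) (t := U) (f := fun p => g p.1)
    fun p hp => h _ (mem_product.1 (mem_filter.1 hp).1).1]
  refine sq_sum_le_card_mul_sum_sq.trans_eq (congrArg _ (sum_congr rfl fun y _ => ?_))
  rw [sq, ← card_product]
  refine congrArg _ (ext fun p => ?_)
  simp only [mem_product, mem_filter]
  exact ⟨fun h => ⟨⟨⟨h.1.1, h.2.1⟩, h.1.2.trans h.2.2.symm⟩, h.1.2⟩,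
    fun h => ⟨⟨h.1.1.1, h.2⟩, h.1.1.2, h.1.2.symm.trans h.2⟩⟩

theorem en4 {W β γ δ : Type*} [AddCommGroup W] [DecidableEq W] (Γ : Finset W) (B : Finset β)
    (C : Finset γ) (D : Finset δ) {b : β → W} {c : γ → W} {d : δ → W} (hb : b.Injective)
    (hc : c.Injective) (hd : d.Injective) (S : Finset (β × γ × δ)) (hS : S ⊆ B ×ˢ C ×ˢ D)
    (h : ∀ x ∈ S, b x.1 + c x.2.1 + d x.2.2 ∈ Γ) {n : ℕ} (nB : #B ≤ n) (nC : #C ≤ n)
    (nD : #D ≤ n) : #S ^ 4 ≤ n ^ 9 * E[Γ, Γ] := by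
  classical
  have m : ∀ x ∈ S, x.1 ∈ B ∧ x.2.1 ∈ C ∧ x.2.2 ∈ D := fun x hx => by
    simpa only [mem_product] using hS hx
  have h1 := cs_fib S (C ×ˢ D) Prod.snd fun x hx => mem_product.2 (m x hx).2
  set T := {p ∈ S ×ˢ S | p.1.2 = p.2.2} with hT
  have mT : ∀ p ∈ T, p.1 ∈ S ∧ p.2 ∈ S ∧ p.1.2 = p.2.2 := fun p hp => by
    simpa only [hT, mem_filter, mem_product, and_assoc] using hp
  have h2 := cs_fib T (B ×ˢ B ×ˢ D) (fun p => (p.1.1, p.2.1, p.1.2.2)) fun p hp => by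
    simp only [mem_product]
    exact ⟨(m _ (mT p hp).1).1, (m _ (mT p hp).2.1).1, (m _ (mT p hp).1).2.2⟩
  set s : β × γ × δ → W := fun x => b x.1 + c x.2.1 + d x.2.2 with hs
  have h3 : #{q ∈ T ×ˢ T | (q.1.1.1, q.1.2.1, q.1.1.2.2) = (q.2.1.1, q.2.2.1, q.2.1.2.2)} ≤
      E[Γ, Γ] * (#B * #C) := by
    rw [addEnergy, ← card_product, ← card_product]
    refine card_le_card_of_injOn (fun q => (((s q.1.1, s q.1.2), s q.2.2, s q.2.1),
      q.1.1.1, q.1.1.2.1)) (fun q hq => ?_) fun q hq r hr e => ?_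
    · obtain ⟨⟨⟨x1, y1, z1⟩, x2, y2, z2⟩, ⟨x3, y3, z3⟩, x4, y4, z4⟩ := q
      simp only [coe_filter, mem_product, Set.mem_ofPred_eq, Prod.mk.injEq] at hq
      obtain ⟨⟨p1, p2⟩, rfl, rfl, rfl⟩ := hq
      obtain ⟨a1, a2, e1⟩ := mT _ p1
      obtain ⟨a3, a4, e2⟩ := mT _ p2
      obtain ⟨rfl, rfl⟩ := Prod.mk.inj e1
      obtain ⟨rfl, rfl⟩ := Prod.mk.inj e2
      simp only [coe_product, coe_filter, mem_product, Set.mem_prod, Set.mem_ofPred_eq, mem_coe]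
      exact ⟨⟨⟨⟨h _ a1, h _ a2⟩, h _ a4, h _ a3⟩, by simp only [hs]; abel⟩, (m _ a1).1,
        (m _ a1).2.1⟩
    · obtain ⟨⟨⟨x1, y1, z1⟩, x2, y2, z2⟩, ⟨x3, y3, z3⟩, x4, y4, z4⟩ := q
      obtain ⟨⟨⟨u1, v1, w1⟩, u2, v2, w2⟩, ⟨u3, v3, w3⟩, u4, v4, w4⟩ := r
      simp only [coe_filter, mem_product, Set.mem_ofPred_eq, Prod.mk.injEq] at hq hr
      obtain ⟨⟨p1, p2⟩, rfl, rfl, rfl⟩ := hq
      obtain ⟨⟨p3, p4⟩, rfl, rfl, rfl⟩ := hr
      obtain ⟨rfl, rfl⟩ := Prod.mk.inj (mT _ p1).2.2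
      obtain ⟨rfl, rfl⟩ := Prod.mk.inj (mT _ p2).2.2
      obtain ⟨rfl, rfl⟩ := Prod.mk.inj (mT _ p3).2.2
      obtain ⟨rfl, rfl⟩ := Prod.mk.inj (mT _ p4).2.2
      simp only [hs, Prod.mk.injEq] at e
      obtain ⟨⟨⟨e1, e2⟩, -, e4⟩, rfl, rfl⟩ := e
      obtain rfl := hd (add_left_cancel e1)
      obtain rfl := hb (add_right_cancel (add_right_cancel e2))
      obtain rfl := hc (add_left_cancel (add_right_cancel e4))
      rfl
  simp only [card_product] at h1 h2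
  calc #S ^ 4 = (#S ^ 2) ^ 2 := by ring
    _ ≤ (#C * #D * #T) ^ 2 := Nat.pow_le_pow_left h1 2
    _ = (#C * #D) ^ 2 * #T ^ 2 := by ring
    _ ≤ (n * n) ^ 2 * (n * (n * n) * (E[Γ, Γ] * (n * n))) := by
      refine Nat.mul_le_mul (by gcongr) (h2.trans (Nat.mul_le_mul (by gcongr) (h3.trans ?_)))
      gcongr
    _ = _ := by ring

/-- **UPG**, general form: `φ (b x + c y + d z) = f x + g y + h z` for many triples -/
theorem upg (k : ℕ) (A : Finset G) (φ : G → H) {β γ δ : Type*} (B : Finset β) (C : Finset γ)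
    (D : Finset δ) {b : β → G} {c : γ → G} {d : δ → G} (hb : b.Injective) (hc : c.Injective)
    (hd : d.Injective) (f : β → H) (g : γ → H) (h : δ → H) (S : Finset (β × γ × δ))
    (hS : S ⊆ B ×ˢ C ×ˢ D) (hA : ∀ x ∈ S, b x.1 + c x.2.1 + d x.2.2 ∈ A ∧
      φ (b x.1 + c x.2.1 + d x.2.2) = f x.1 + g x.2.1 + h x.2.2) {n : ℕ} (nA : #A ≤ n)
    (nB : #B ≤ n) (nC : #C ≤ n) (nD : #D ≤ n) {t : ℝ} (ht : 2 ≤ t) (hn : (n : ℝ) ^ 3 ≤ t * #S) :
    ∃ A' ⊆ A, Fh k A' φ ∧ (n : ℝ) ≤ t ^ (5 * Cf k) * #A' := by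
  classical
  rcases n.eq_zero_or_pos with rfl | n0
  · exact ⟨∅, empty_subset _, fun u v hu hv _ => sum_congr rfl fun i _ =>
      absurd (hu i) (notMem_empty _), by simp⟩
  have n1 : (0 : ℝ) < n := Nat.cast_pos.2 n0
  have t1 : 1 ≤ t := by linarith
  set Γ := A.image fun a => (a, φ a) with hΓ
  have h1 := en4 Γ B C D (b := fun x => (b x, f x)) (c := fun x => (c x, g x))
    (d := fun x => (d x, h x)) (fun _ _ e => hb (congrArg Prod.fst e))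
    (fun _ _ e => hc (congrArg Prod.fst e)) (fun _ _ e => hd (congrArg Prod.fst e)) S hS
    (fun x hx => mem_image.2 ⟨_, (hA x hx).1, Prod.ext rfl (hA x hx).2⟩) nB nC nD
  have h2 : (n : ℝ) ^ 3 ≤ t ^ 4 * E[Γ, Γ] := by
    refine le_of_mul_le_mul_left ?_ (pow_pos n1 9)
    calc _ = ((n : ℝ) ^ 3) ^ 4 := by ring
      _ ≤ (t * #S) ^ 4 := by gcongr
      _ = t ^ 4 * (#S : ℝ) ^ 4 := by ring
      _ ≤ t ^ 4 * ((n : ℝ) ^ 9 * E[Γ, Γ]) := by gcongr; exact_mod_cast h1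
      _ = _ := by ring
  have h3 : (n : ℝ) ≤ t ^ 2 * #A := by
    refine le_of_pow_le_pow_left₀ three_ne_zero (by positivity) (h2.trans ?_)
    have : (E[Γ, Γ] : ℝ) ≤ (#A : ℝ) ^ 3 := by
      exact_mod_cast (energy_le_cube Γ).trans (Nat.pow_le_pow_left card_image_le 3)
    rw [mul_pow, ← pow_mul]
    exact mul_le_mul (pow_le_pow_right₀ t1 (by norm_num)) this (by positivity) (by positivity)
  obtain ⟨A', a, fh, c1⟩ := fr0E k A φ (t := t ^ 5) (ht.trans (le_self_pow₀ t1 (by norm_num))) (by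
    have : (#A : ℝ) ^ 3 ≤ (n : ℝ) ^ 3 := by gcongr
    rw [pow_succ' t 4, mul_assoc]
    exact mul_le_mul ht (this.trans h2) (by positivity) (by positivity))
  refine ⟨A', a, fh, h3.trans ((mul_le_mul_of_nonneg_left c1 (by positivity)).trans ?_)⟩
  rw [← mul_assoc, ← pow_mul, ← pow_add]
  exact mul_le_mul_of_nonneg_right (pow_le_pow_right₀ t1 (by rw [Cf]; omega)) (Nat.cast_nonneg _)

/-- the quadruples `x₁ + x₂ = x₃ + x₄` of `A × B × B × B` with `f₁ x₁ + ⋯ + f₄ x₄ = c` -/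
def Q4 (A B : Finset G) (f₁ f₂ f₃ f₄ : G → H) (c : H) (S : Finset (G × G × G × G)) : Prop :=
  ∀ x ∈ S, x.1 ∈ A ∧ x.2.1 ∈ B ∧ x.2.2.1 ∈ B ∧ x.2.2.2 ∈ B ∧ x.1 + x.2.1 = x.2.2.1 + x.2.2.2 ∧
    f₁ x.1 + f₂ x.2.1 + f₃ x.2.2.1 + f₄ x.2.2.2 = c

theorem Q4.inj {A B : Finset G} {f₁ f₂ f₃ f₄ : G → H} {c : H} {S : Finset (G × G × G × G)}
    (h : Q4 A B f₁ f₂ f₃ f₄ c S) : Set.InjOn Prod.snd (S : Set (G × G × G × G)) :=
  fun x hx y hy e => Prod.ext (add_right_cancel (b := x.2.1) (by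
    rw [(h x hx).2.2.2.2.1, e, (h y hy).2.2.2.2.1])) e

theorem Q4.card_le {A B : Finset G} {f₁ f₂ f₃ f₄ : G → H} {c : H} {S : Finset (G × G × G × G)}
    (h : Q4 A B f₁ f₂ f₃ f₄ c S) : #S ≤ #B ^ 3 :=
  (card_le_card_of_injOn (t := B ×ˢ B ×ˢ B) Prod.snd (fun x hx => by
    simp only [coe_product, Set.mem_prod, mem_coe]
    exact ⟨(h x hx).2.1, (h x hx).2.2.1, (h x hx).2.2.2.1⟩) h.inj).trans_eq
    (by simp only [card_product]; ring)

/-- **UPG** on additive quadruples -/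
theorem upg4 (k : ℕ) {A B : Finset G} (hA : #A ≤ #B) {f₁ f₂ f₃ f₄ : G → H} {c : H}
    {S : Finset (G × G × G × G)} (h : Q4 A B f₁ f₂ f₃ f₄ c S) {t : ℝ} (ht : 2 ≤ t)
    (hn : (#B : ℝ) ^ 3 ≤ t * #S) : ∃ A' ⊆ A, Fh k A' f₁ ∧ (#B : ℝ) ≤ t ^ (5 * Cf k) * #A' := by
  classical
  refine upg k A f₁ B B B (b := fun x => -x) (c := id) (d := id) neg_injective
    Function.injective_id Function.injective_id (fun x => c - f₂ x) (fun x => -f₃ x)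
    (fun x => -f₄ x) (S.image Prod.snd) (image_subset_iff.2 fun x hx => ?_) (fun y hy => ?_) hA
    le_rfl le_rfl le_rfl ht (by rwa [card_image_of_injOn h.inj])
  · simp only [mem_product]
    exact ⟨(h x hx).2.1, (h x hx).2.2.1, (h x hx).2.2.2.1⟩
  · obtain ⟨x, hx, rfl⟩ := mem_image.1 hy
    obtain ⟨a, -, -, -, e1, e2⟩ := h x hx
    have : -x.2.1 + id x.2.2.1 + id x.2.2.2 = x.1 := by
      rw [id, id, add_assoc, ← e1]; abel
    rw [this, ← e2]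
    exact ⟨a, by abel⟩

/-- **UPG, linewise**: one instance on every line `x ∈ X`, many quadruples on average -/
theorem upgL (k : ℕ) {ξ : Type*} (X : Finset ξ) (A : ξ → Finset G) (B : Finset G)
    (hA : ∀ x ∈ X, #(A x) ≤ #B) (f₁ f₂ f₃ f₄ : ξ → G → H) (c : ξ → H)
    (S : ξ → Finset (G × G × G × G))
    (h : ∀ x ∈ X, Q4 (A x) B (f₁ x) (f₂ x) (f₃ x) (f₄ x) (c x) (S x)) {t : ℝ} (ht : 1 ≤ t)
    (hn : #X * (#B : ℝ) ^ 3 ≤ t * ∑ x ∈ X, (#(S x) : ℝ)) :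
    ∃ A' : ξ → Finset G, (∀ x, A' x ⊆ A x ∧ Fh k (A' x) (f₁ x)) ∧
      #X * (#B : ℝ) ≤ (2 * t) ^ (5 * Cf k + 1) * ∑ x ∈ X, (#(A' x) : ℝ) := by
  classical
  have key : ∀ x, ∃ A' ⊆ A x, Fh k A' (f₁ x) ∧ (x ∈ X → (#B : ℝ) ^ 3 ≤ 2 * t * #(S x) →
      (#B : ℝ) ≤ (2 * t) ^ (5 * Cf k) * #A') := fun x => by
    by_cases hx : x ∈ X ∧ (#B : ℝ) ^ 3 ≤ 2 * t * #(S x)
    · obtain ⟨A', a, f, c⟩ := upg4 k (hA x hx.1) (h x hx.1) (t := 2 * t) (by linarith) hx.2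
      exact ⟨A', a, f, fun _ _ => c⟩
    · exact ⟨∅, empty_subset _, fun u v hu hv _ => sum_congr rfl fun i _ =>
        absurd (hu i) (notMem_empty _), fun a b => absurd ⟨a, b⟩ hx⟩
  choose A' a f c' using key
  refine ⟨A', fun x => ⟨a x, f x⟩, ?_⟩
  set n : ℝ := ((#B : ℕ) : ℝ)
  set T := (2 * t) ^ (5 * Cf k) with hT
  have t0 : 0 < t := by linarith
  have T0 : 0 ≤ T := pow_nonneg (by linarith) _
  rcases (Nat.cast_nonneg #B : 0 ≤ n).eq_or_lt with n0 | n0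
  · rw [show n = 0 from n0.symm, mul_zero]
    exact mul_nonneg (pow_nonneg (by linarith) _) (sum_nonneg fun _ _ => Nat.cast_nonneg _)
  have h1 : ∀ x ∈ X, 2 * t * #(S x) ≤ n ^ 3 + 2 * t * T * n ^ 2 * #(A' x) := fun x hx => by
    rcases le_total (n ^ 3) (2 * t * #(S x)) with e | e
    · have e1 : (#(S x) : ℝ) ≤ (#B : ℝ) ^ 3 := by exact_mod_cast (h x hx).card_le
      have e2 := mul_le_mul_of_nonneg_left (c' x hx e) (by positivity : 0 ≤ 2 * t * n ^ 2)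
      have e3 := mul_le_mul_of_nonneg_left e1 (by positivity : 0 ≤ 2 * t)
      nlinarith [pow_pos n0 3]
    · exact e.trans (le_add_of_nonneg_right (by positivity))
  have h2 := sum_le_sum h1
  rw [sum_add_distrib, sum_const, nsmul_eq_mul, ← mul_sum, ← mul_sum] at h2
  have n1 : 0 < n := n0
  rw [pow_succ, ← hT]
  refine le_of_mul_le_mul_right ?_ (pow_pos n1 2)
  clear_value T n
  nlinarith

end Crest.Agent.N49.Fr
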